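import Vale.Agent.P201.Hnn
import Vale.Agent.P201.Ore

/-!
Group algebras of multiple HNN extensions of free groups, of amalgams of free groups, and of
amalgams of bi-ordered groups over a free, abelian or slowly growing subgroup, have no zero
divisors.
-/

namespace Vale.Agent.Results.P201.FreeAmalgams

open Monoid
open scoped Pointwise
open Vale.Agent

/-- The group algebra of `G` over `K` has no zero divisors and `G` is torsion-free. -/
def ZeroDivisorFree (K : Type) [Field K] (G : Type) [Group G] : Prop :=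
  (∀ a b : MonoidAlgebra K G, a * b = 0 → a = 0 ∨ b = 0) ∧ ∀ g : G, IsOfFinOrder g → g = 1

theorem result :
    (∀ (K : Type) [Field K] (X κ : Type) (C : κ → Subgroup (FreeGroup X))
      (φ : ∀ k, ↥(C k) →* FreeGroup X), (∀ k, Function.Injective (φ k)) →
        let G := PresentedGroup (Set.range fun p : Σ k, ↥(C k) =>
          FreeGroup.of (Sum.inr p.1 : X ⊕ κ) * FreeGroup.map Sum.inl (p.2 : FreeGroup X)
            * (FreeGroup.of (Sum.inr p.1))⁻¹ * (FreeGroup.map Sum.inl (φ p.1 p.2))⁻¹)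
        ZeroDivisorFree K G) ∧
    (∀ (K : Type) [Field K] (ι : Type) [Nonempty ι] (X : ι → Type) (H : Type) [Group H]
      (φ : ∀ i, H →* FreeGroup (X i)), (∀ i, Function.Injective (φ i)) →
        ZeroDivisorFree K (PushoutI φ)) ∧
    (∀ (K : Type) [Field K] (ι : Type) [Nonempty ι] (G : ι → Type) [∀ i, Group (G i)]
      [∀ i, LinearOrder (G i)] [∀ i, MulLeftMono (G i)] [∀ i, MulRightMono (G i)]
      (α : Type) (φ : ∀ i, FreeGroup α →* G i), (∀ i, Function.Injective (φ i)) →
        ZeroDivisorFree K (PushoutI φ)) ∧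
    ∀ (K : Type) [Field K] (ι : Type) [Nonempty ι] (G : ι → Type) [∀ i, Group (G i)]
      [∀ i, LinearOrder (G i)] [∀ i, MulLeftMono (G i)] [∀ i, MulRightMono (G i)]
      (H : Type) [Group H] [DecidableEq H],
      ((∀ a b : H, a * b = b * a) ∨ ∀ S : Finset H, ∃ n : ℕ, (S ^ n).card < 2 ^ n) →
      ∀ (φ : ∀ i, H →* G i), (∀ i, Function.Injective (φ i)) →
        ZeroDivisorFree K (PushoutI φ) := by
  refine ⟨fun K _ X κ C φ hφ => ?_, fun K _ ι _ X H _ φ hφ => ?_,
    fun K _ ι _ G _ _ _ _ α φ hφ => ?_, fun K _ ι _ G _ _ _ _ H _ _ hH φ hφ => ?_⟩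
  · have h := P201.noZeroDivisors_free_hnn (K := K) C φ hφ
    unfold P201.hnnRels at h
    exact ⟨fun a b => eq_zero_or_eq_zero_of_mul_eq_zero,
      fun g hg => P201.eq_one_of_isOfFinOrder (K := K) hg⟩
  · haveI := P201.noZeroDivisors_free_amalgam (K := K) X φ hφ
    exact ⟨fun a b => eq_zero_or_eq_zero_of_mul_eq_zero,
      fun g hg => P201.eq_one_of_isOfFinOrder (K := K) hg⟩
  · haveI := P201.noZeroDivisors_pushout (K := K) φ hφ
    exact ⟨fun a b => eq_zero_or_eq_zero_of_mul_eq_zero,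
      fun g hg => P201.eq_one_of_isOfFinOrder (K := K) hg⟩
  · haveI := P201.noZeroDivisors_pushout_smallGrowth (K := K) hH φ hφ
    exact ⟨fun a b => eq_zero_or_eq_zero_of_mul_eq_zero,
      fun g hg => P201.eq_one_of_isOfFinOrder (K := K) hg⟩

end Vale.Agent.Results.P201.FreeAmalgams
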