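import Mathlib

open Finset

namespace Vale.Agent.P201PrimeTwo

variable {G : Type*} [Group G]

/-- Over any field, one or two terms cannot annihilate a finitely supported function. -/
lemma two_terms {k : Type*} [Field k] (htf : ∀ g : G, g ≠ 1 → ¬ IsOfFinOrder g)
    (s : Finset G) (hs : s.card = 1 ∨ s.card = 2) (C : G → k) (hC : ∀ g ∈ s, C g ≠ 0)
    (B : G →₀ k) (hB : ∀ x, ∑ g ∈ s, C g * B (g⁻¹ * x) = 0) : B = 0 := by
  classical
  rcases hs with h | h
  · obtain ⟨g, rfl⟩ := Finset.card_eq_one.mp h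
    ext y
    have := hB (g * y)
    simpa [hC g (Finset.mem_singleton_self g)] using this
  · obtain ⟨g, h', hne, rfl⟩ := Finset.card_eq_two.mp h
    have hg := hC g (by simp)
    have hh := hC h' (by simp)
    set u := g⁻¹ * h' with hu
    have hu1 : u ≠ 1 := fun he => hne (inv_mul_eq_one.mp he)
    have hstep : ∀ y ∈ B.support, u * y ∈ B.support := by
      intro y hy
      rw [Finsupp.mem_support_iff] at hy ⊢
      intro h0
      have h1 := hB (h' * y)
      rw [Finset.sum_pair hne, ← mul_assoc, ← hu, h0, mul_zero, zero_add, inv_mul_cancel_left,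
        mul_eq_zero] at h1
      exact h1.elim hh hy
    by_contra hne0
    obtain ⟨y, hy⟩ := Finsupp.support_nonempty_iff.mpr hne0
    have hall : ∀ n : ℕ, u ^ n * y ∈ B.support := by
      intro n
      induction n with
      | zero => simpa using hy
      | succ n ih => rw [pow_succ', mul_assoc]; exact hstep _ ih
    have hinj : Function.Injective fun n : ℕ => u ^ n * y := fun m n hmn => by
      have : u ^ m = u ^ n := mul_right_cancel hmn
      exact (injective_pow_iff_not_isOfFinOrder.mpr (htf u hu1)) this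
    exact Set.infinite_of_injective_forall_mem hinj hall B.support.finite_toSet

/-- Integral version: a prime leaving one or two coefficients forbids annihilation. -/
lemma int_version (htf : ∀ g : G, g ≠ 1 → ¬ IsOfFinOrder g) (s : Finset G) (c : G → ℤ) (p : ℕ)
    (hp : p.Prime)
    (hs : (s.filter fun g => ¬ (p : ℤ) ∣ c g).card = 1 ∨
      (s.filter fun g => ¬ (p : ℤ) ∣ c g).card = 2)
    (b : G →₀ ℤ) (hb : ∀ x, ∑ g ∈ s, c g * b (g⁻¹ * x) = 0) : b = 0 := by
  classical
  have : Fact p.Prime := ⟨hp⟩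
  generalize hN : ∑ y ∈ b.support, (b y).natAbs = N
  induction N using Nat.strong_induction_on generalizing b with
  | _ N ih =>
  set B : G →₀ ZMod p := b.mapRange (fun z : ℤ => (z : ZMod p)) (by simp) with hBdef
  have hB0 : B = 0 := by
    refine two_terms htf (s.filter fun g => ¬ (p : ℤ) ∣ c g) hs (fun g => (c g : ZMod p))
      (fun g hg => ?_) B fun x => ?_
    · rw [Ne, ZMod.intCast_zmod_eq_zero_iff_dvd]
      exact (Finset.mem_filter.mp hg).2
    · rw [Finset.sum_filter_of_ne]
      · have := congrArg (fun z : ℤ => (z : ZMod p)) (hb x)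
        simpa [hBdef] using this
      · intro g _ hne hdvd
        refine hne ?_
        rw [(ZMod.intCast_zmod_eq_zero_iff_dvd _ _).mpr hdvd, zero_mul]
  have hdvd : ∀ y, (p : ℤ) ∣ b y := fun y => by
    rw [← ZMod.intCast_zmod_eq_zero_iff_dvd]
    simpa [hBdef] using DFunLike.congr_fun hB0 y
  by_contra hne
  set b' : G →₀ ℤ := b.mapRange (fun z : ℤ => z / p) (by simp) with hb'
  have hpb : ∀ y, b y = (p : ℤ) * b' y := fun y => by
    rw [hb', Finsupp.mapRange_apply, Int.mul_ediv_cancel' (hdvd y)]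
  have hp0 : (p : ℤ) ≠ 0 := by exact_mod_cast hp.ne_zero
  have hb'eq : ∀ x, ∑ g ∈ s, c g * b' (g⁻¹ * x) = 0 := by
    intro x
    have h := hb x
    simp only [hpb, mul_left_comm _ (p : ℤ), ← Finset.mul_sum] at h
    exact (mul_eq_zero.mp h).resolve_left hp0
  have hsupp : b'.support ⊆ b.support := Finsupp.support_mapRange
  have hlt : ∑ y ∈ b'.support, (b' y).natAbs < N := by
    rw [← hN]
    refine lt_of_le_of_lt (Finset.sum_le_sum_of_subset hsupp) ?_
    refine Finset.sum_lt_sum_of_nonempty (Finsupp.support_nonempty_iff.mpr hne) fun y hy => ?_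
    have h1 : b' y ≠ 0 := fun h => Finsupp.mem_support_iff.mp hy (by rw [hpb, h, mul_zero])
    rw [hpb y, Int.natAbs_mul, Int.natAbs_natCast]
    exact lt_mul_left (Int.natAbs_pos.mpr h1) hp.one_lt
  have := ih _ hlt b' hb'eq rfl
  refine hne (Finsupp.ext fun y => ?_)
  rw [hpb, this]
  simp

/-- The criterion in the group algebra of any field of characteristic zero. -/
lemma field_version (htf : ∀ g : G, g ≠ 1 → ¬ IsOfFinOrder g) {K : Type*} [Field K] [CharZero K]
    (s : Finset G) (c : G → ℤ) (p : ℕ) (hp : p.Prime)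
    (hs : (s.filter fun g => ¬ (p : ℤ) ∣ c g).card = 1 ∨
      (s.filter fun g => ¬ (p : ℤ) ∣ c g).card = 2)
    (β : MonoidAlgebra K G)
    (h : (∑ g ∈ s, MonoidAlgebra.single g (c g : K)) * β = 0) : β = 0 := by
  classical
  set f : G →₀ K := β.coeff with hf
  suffices hf0 : f = 0 by
    ext y
    simpa [hf] using DFunLike.congr_fun hf0 y
  have hconv : ∀ x, ∑ g ∈ s, (c g : K) * f (g⁻¹ * x) = 0 := by
    intro x
    have h1 := congrArg (fun z : MonoidAlgebra K G => z.coeff x) h
    simpa [Finset.sum_mul, hf, MonoidAlgebra.coeff_single_mul_apply] using h1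
  by_contra hne
  obtain ⟨y, hy⟩ := Finsupp.support_nonempty_iff.mpr hne
  rw [Finsupp.mem_support_iff] at hy
  obtain ⟨φ, hφ⟩ : ∃ φ : K →ₗ[ℚ] ℚ, φ (f y) ≠ 0 := by
    by_contra hcon
    push Not at hcon
    exact hy ((Module.forall_dual_apply_eq_zero_iff ℚ (f y)).mp hcon)
  set q : G →₀ ℚ := f.mapRange φ (map_zero φ) with hq
  set D : ℕ := ∏ z ∈ q.support, (q z).den with hD
  have hint : ∀ z, ∃ n : ℤ, (n : ℚ) = (D : ℚ) * q z := by
    intro z
    by_cases hz : z ∈ q.support
    · refine ⟨(q z).num * ∏ w ∈ q.support.erase z, ((q w).den : ℤ), ?_⟩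
      have h2 : D = (q z).den * ∏ w ∈ q.support.erase z, (q w).den :=
        (Finset.mul_prod_erase q.support (fun w => (q w).den) hz).symm
      have h3 : (q z) * ((q z).den : ℚ) = ((q z).num : ℚ) := Rat.mul_den_eq_num (q z)
      rw [h2]
      push_cast
      rw [← h3]
      ring
    · exact ⟨0, by rw [Finsupp.notMem_support_iff.mp hz]; simp⟩
  choose n hn using hint
  set b : G →₀ ℤ := Finsupp.onFinset q.support n (fun z hz => by
    rw [Finsupp.mem_support_iff]
    intro h0
    refine hz ?_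
    have := hn z
    rw [h0, mul_zero] at this
    exact_mod_cast this) with hbdef
  have hb : ∀ x, ∑ g ∈ s, c g * b (g⁻¹ * x) = 0 := by
    intro x
    have h1 : (∑ g ∈ s, (c g : ℚ) * ((D : ℚ) * φ (f (g⁻¹ * x)))) = 0 := by
      have h2 := congrArg φ (hconv x)
      rw [map_sum, map_zero] at h2
      rw [← mul_zero (D : ℚ), ← h2, Finset.mul_sum]
      refine Finset.sum_congr rfl fun g _ => ?_
      rw [show (c g : K) * f (g⁻¹ * x) = (c g : ℤ) • f (g⁻¹ * x) by rw [zsmul_eq_mul],
        map_zsmul, zsmul_eq_mul]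
      ring
    have h3 : ((∑ g ∈ s, c g * b (g⁻¹ * x) : ℤ) : ℚ) = 0 := by
      rw [← h1]
      push_cast
      refine Finset.sum_congr rfl fun g _ => ?_
      rw [hbdef, Finsupp.onFinset_apply, hn, hq, Finsupp.mapRange_apply]
    exact_mod_cast h3
  have hb0 := int_version htf s c p hp hs b hb
  have h4 : n y = 0 := by
    simpa [hbdef] using DFunLike.congr_fun hb0 y
  have h5 := hn y
  rw [h4, Int.cast_zero, hq, Finsupp.mapRange_apply, eq_comm, mul_eq_zero] at h5
  rcases h5 with h5 | h5
  · have : D ≠ 0 := Finset.prod_ne_zero_iff.mpr fun z _ => (q z).den_nz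
    exact this (by exact_mod_cast h5)
  · exact hφ h5

end Vale.Agent.P201PrimeTwo

open Vale.Agent.P201PrimeTwo

/-- An element with integer coefficients which modulo some prime has one or two terms is not a
zero divisor; so an annihilating integral trinomial has coefficients of equal absolute value. -/
theorem Vale.Agent.Results.P201.PrimeTwoTerms.result :
    ∀ (G : Type) [Group G], (∀ g : G, g ≠ 1 → ¬ IsOfFinOrder g) →
      ∀ (K : Type) [Field K] [CharZero K] (s : Finset G) (c : G → ℤ) (β : MonoidAlgebra K G),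
        (∑ g ∈ s, MonoidAlgebra.single g (c g : K)) * β = 0 →
          ((∃ p : ℕ, p.Prime ∧ ((s.filter fun g => ¬ (p : ℤ) ∣ c g).card = 1 ∨
              (s.filter fun g => ¬ (p : ℤ) ∣ c g).card = 2)) → β = 0) ∧
          (β ≠ 0 → s.card ≤ 3 → (∀ g ∈ s, c g ≠ 0) →
            ∀ g ∈ s, ∀ h ∈ s, |c g| = |c h|) := by
  intro G _ htf K _ _ s c β h
  refine ⟨fun ⟨p, hp, hs⟩ => field_version htf s c p hp hs β h, ?_⟩
  intro hβ hcard hne
  classical
  rcases s.eq_empty_or_nonempty with rfl | hsne
  · simp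
  obtain ⟨a, ha, hag⟩ := Finset.extract_gcd c hsne
  set d := s.gcd c with hd
  have hd0 : d ≠ 0 := Finset.gcd_ne_zero_iff.mpr ⟨hsne.choose, hsne.choose_spec,
    hne _ hsne.choose_spec⟩
  have hK : (∑ g ∈ s, MonoidAlgebra.single g (a g : K)) * β = 0 := by
    have hsum : ∑ g ∈ s, MonoidAlgebra.single g (c g : K) =
        (d : K) • ∑ g ∈ s, MonoidAlgebra.single g (a g : K) := by
      rw [Finset.smul_sum]
      refine Finset.sum_congr rfl fun g hg => ?_
      rw [MonoidAlgebra.smul_single, ha g hg, smul_eq_mul]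
      push_cast
      rfl
    rw [hsum, smul_mul_assoc, smul_eq_zero] at h
    exact h.resolve_left (by exact_mod_cast hd0)
  have key : ∀ g ∈ s, (a g).natAbs = 1 := by
    intro g hg
    by_contra hg1
    obtain ⟨p, hp, hdvd⟩ := Nat.exists_prime_and_dvd hg1
    have hpg : (p : ℤ) ∣ a g := Int.natCast_dvd.mpr hdvd
    refine hβ (field_version htf s a p hp ?_ β hK)
    have h1 : (s.filter fun x => ¬ (p : ℤ) ∣ a x).card ≤ 2 := by
      have hsub : (s.filter fun x => ¬ (p : ℤ) ∣ a x) ⊆ s.erase g := fun x hx => by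
        obtain ⟨hx1, hx2⟩ := Finset.mem_filter.mp hx
        exact Finset.mem_erase.mpr ⟨fun he => hx2 (he ▸ hpg), hx1⟩
      have := Finset.card_le_card hsub
      rw [Finset.card_erase_of_mem hg] at this
      omega
    have h2 : (s.filter fun x => ¬ (p : ℤ) ∣ a x).card ≠ 0 := by
      intro h0
      rw [Finset.card_eq_zero, Finset.filter_eq_empty_iff] at h0
      have h3 : (p : ℤ) ∣ s.gcd a := Finset.dvd_gcd fun x hx => not_not.mp (h0 hx)
      rw [hag] at h3
      exact hp.one_lt.ne' (by exact_mod_cast Int.eq_one_of_dvd_one (by positivity) h3)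
    omega
  intro g hg k hk
  rw [ha g hg, ha k hk, abs_mul, abs_mul, Int.abs_eq_natAbs (a g), Int.abs_eq_natAbs (a k),
    key g hg, key k hk]
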